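import Vale.Agent.P172M11.CatDefs
import Vale.Agent.P172V.CATm
import Vale.Agent.P172V.CN

/-!
# Comparison triangles exist and are unique; the forms of CAT and of geometric actions agree
-/

namespace Vale.Agent.P172M11

open Set Real Topology UpperHalfPlane Vale.Agent.P172 Vale.Agent.P172.H372 Vale.Agent.P198.H372
  Vale.Agent.P172V

/-- the distance from a point of a side to another point is determined by the lengths -/
def Rigid (M : Type*) [MetricSpace M] : Prop :=
  ∀ x y a q x' y' a' q' : M, dist x a + dist a y = dist x y → dist x' y' = dist x y →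
    dist x' a' = dist x a → dist a' y' = dist a y → dist x' q' = dist x q → dist y' q' = dist y q →
    dist a' q' = dist a q

theorem rigid_H : Rigid ℍ := fun x y a q x' y' a' q' h e1 e2 e3 e4 e5 => by
  rw [← dist_emb, ← dist_emb a]
  refine (dist_eq_dist (x := emb x) (y := emb y) (z := emb q) (x' := emb x') (y' := emb y')
    (z' := emb q') (s := dist x a) (t := dist x q) ?_ ?_ ?_ ?_ ?_ ?_ ?_ ?_ ?_ ?_ ?_ ?_ ?_).symm <;>
    simp only [dist_emb, dist_self, mem_Icc]
  exacts [⟨dist_nonneg, by linarith [dist_nonneg (x := a) (y := y)]⟩, ⟨dist_nonneg, le_rfl⟩,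
    by linarith, by linarith, e2, by linarith, e4, by linarith, e1, e4, e5]

theorem rigid_E : Rigid (EuclideanSpace ℝ (Fin 2)) := fun x y a q x' y' a' q' h e1 e2 e3 e4 e5 => by
  obtain ⟨r, hr, rfl⟩ := dist_add_dist_eq_iff.1 h
  obtain ⟨r', hr', rfl⟩ := dist_add_dist_eq_iff.1 (show dist x' a' + dist a' y' = dist x' y' by
    linarith)
  rw [dist_left_lineMap, dist_left_lineMap, e1, Real.norm_of_nonneg hr.1,
    Real.norm_of_nonneg hr'.1] at e2
  rw [← pow_left_inj₀ dist_nonneg dist_nonneg two_ne_zero, dist_lineMap_sq, dist_lineMap_sq, e1, e4,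
    e5]
  rcases mul_eq_mul_right_iff.1 e2 with rfl | k
  · rfl
  · rw [dist_eq_zero.1 k, dist_self]; ring

theorem geod_H (z w : ℍ) : ∃ γ, IsGeodesic γ z w := by
  obtain ⟨g, hg⟩ := MulAction.exists_smul_eq (Matrix.SpecialLinearGroup (Fin 2) ℝ) z (vert 0)
  have hc : Continuous fun θ : ℝ => (rot θ • g • w).re :=
    UpperHalfPlane.continuous_re.comp (continuous_rot.smul continuous_const)
  have e : (rot (π / 2) • g • w).re = -(g • w).re / Complex.normSq (g • w : ℍ) := by
    rw [← UpperHalfPlane.coe_re, coe_rot_smul, cos_pi_div_two, sin_pi_div_two]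
    simp [neg_div]
  obtain ⟨θ, hθ⟩ : ∃ θ, (rot θ • g • w).re = 0 := by
    have n := Complex.normSq_nonneg (g • w : ℍ)
    refine (le_total 0 (g • w).re).elim (fun k => intermediate_value_univ (π / 2) 0 hc ⟨?_, ?_⟩)
      fun k => intermediate_value_univ 0 (π / 2) hc ⟨?_, ?_⟩
    · rw [e]; exact div_nonpos_of_nonpos_of_nonneg (by linarith) n
    · rwa [rot_zero_smul]
    · rwa [rot_zero_smul]
    · rw [e]; exact div_nonneg (by linarith) n
  obtain ⟨y, hy⟩ : ∃ y, rot θ • g • w = vert y := ⟨log (rot θ • g • w).im, by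
    apply UpperHalfPlane.ext
    apply Complex.ext
    · exact hθ
    · exact (exp_log (UpperHalfPlane.im_pos _)).symm⟩
  have hz : (rot θ * g) • z = vert 0 := by rw [mul_smul, hg, rot_vert_zero]
  rw [← mul_smul] at hy
  have d : dist z w = |y| := by
    rw [← dist_smul (rot θ * g), hz, hy, dist_vert, zero_sub, abs_neg]
  rcases abs_choice y with k | k
  · refine ⟨fun s => (rot θ * g)⁻¹ • vert s, by beta_reduce; rw [← hz, inv_smul_smul],
      by beta_reduce; rw [d, k, ← hy, inv_smul_smul], fun s _ t _ => by rw [dist_smul, dist_vert]⟩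
  · refine ⟨fun s => (rot θ * g)⁻¹ • vert (-s), by simp only [neg_zero]; rw [← hz, inv_smul_smul],
      by simp only [d, k, neg_neg]; rw [← hy, inv_smul_smul], fun s _ t _ => by
        rw [dist_smul, dist_vert, neg_sub_neg, abs_sub_comm]⟩

theorem geod_line (x y : EuclideanSpace ℝ (Fin 2)) :
    IsGeodesic (fun u => AffineMap.lineMap x y (u / dist x y)) x y := by
  rcases eq_or_ne x y with rfl | h
  · exact ⟨by simp, by simp, fun s hs t ht => by
      rw [dist_self] at hs ht
      simp [le_antisymm hs.2 hs.1, le_antisymm ht.2 ht.1]⟩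
  have := dist_pos.2 h
  refine ⟨by simp, by simp [this.ne'], fun s _ t _ => ?_⟩
  rw [dist_lineMap_lineMap, Real.dist_eq, ← sub_div, abs_div, abs_of_pos this,
    div_mul_cancel₀ _ this.ne']

variable {M X : Type*} [MetricSpace M] [MetricSpace X]

theorem rev {γ : ℝ → X} {x y : X} (h : IsGeodesic γ x y) :
    IsGeodesic (fun s => γ (dist x y - s)) y x := by
  refine ⟨by simpa using h.2.1, by simpa [dist_comm y x] using h.1, fun s hs t ht => ?_⟩
  rw [dist_comm] at hs ht
  rw [h.2.2 _ ⟨by linarith [hs.2], by linarith [hs.1]⟩ _ ⟨by linarith [ht.2], by linarith [ht.1]⟩,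
    sub_sub_sub_cancel_left, abs_sub_comm]

theorem uniq (hM : Rigid M) {p : Fin 3 → X} {q q' : Fin 3 → M} {η η' : Fin 3 → ℝ → M}
    (h : IsComparison p q η) (h' : IsComparison p q' η') (i j : Fin 3) {s t : ℝ}
    (hs : s ∈ Icc 0 (dist (p i) (p (i + 1)))) (ht : t ∈ Icc 0 (dist (p j) (p (j + 1)))) :
    dist (η' i s) (η' j t) = dist (η i s) (η j t) := by
  have e : ∀ i, dist (q' i) (q' (i + 1)) = dist (q i) (q (i + 1)) := fun i => by rw [h.2, h'.2]
  have e' : ∀ k l, dist (q' k) (q' l) = dist (q k) (q l) := fun k l => by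
    have : l = k ∨ l = k + 1 ∨ k = l + 1 := by revert k l; decide
    rcases this with rfl | rfl | rfl
    exacts [by simp, e _, by rw [dist_comm, e, dist_comm]]
  have U : ∀ i, ∀ s ∈ Icc 0 (dist (p i) (p (i + 1))), ∀ a a', dist (q' i) a' = dist (q i) a →
      dist (q' (i + 1)) a' = dist (q (i + 1)) a → dist (η' i s) a' = dist (η i s) a :=
    fun i s hs a a' k k' => by
      have a1 := IsGeodesic.left (h.1 i) (by rwa [h.2])
      have a2 := IsGeodesic.right (h.1 i) (by rwa [h.2])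
      have a3 := IsGeodesic.left (h'.1 i) (by rwa [h'.2])
      have a4 := IsGeodesic.right (h'.1 i) (by rwa [h'.2])
      exact hM _ _ _ _ _ _ _ _ (by linarith) (e i) (by linarith) (by linarith [e i]) k k'
  refine U i s hs _ _ ?_ ?_ <;> rw [dist_comm, U j t ht _ _ (e' _ _) (e' _ _), dist_comm]

theorem cat_iff (hM : Rigid M) (hg : ∀ x y : M, ∃ γ, IsGeodesic γ x y)
    (he : ∀ x y z : X, ∃ x' y' z' : M, dist x' y' = dist x y ∧ dist x' z' = dist x z ∧
      dist y' z' = dist y z) : IsCAT M X ↔ IsCAT' M X := by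
  refine and_congr_right fun _ => forall₃_congr fun p γ _ => ⟨?_, fun h => ?_⟩
  · rintro ⟨q, η, h1, h2⟩ q' η' h' i j s hs t ht
    rw [uniq hM h1 h' i j hs ht]
    exact h2 i j s hs t ht
  · obtain ⟨x, y, z, e1, e2, e3⟩ := he (p 0) (p 1) (p 2)
    choose η hη using fun i : Fin 3 => hg (![x, y, z] i) (![x, y, z] (i + 1))
    have : IsComparison p ![x, y, z] η := ⟨hη, fun i => by
      fin_cases i
      exacts [e1, e3, by simpa [dist_comm] using e2]⟩
    exact ⟨_, _, this, h _ _ this⟩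

theorem cat_E : IsCAT (EuclideanSpace ℝ (Fin 2)) X ↔ IsCAT' (EuclideanSpace ℝ (Fin 2)) X :=
  cat_iff rigid_E (fun x y => ⟨_, geod_line x y⟩) fun x y z =>
    exists_comparison dist_nonneg dist_nonneg dist_nonneg (dist_triangle_right x y z |>.trans_eq
      (by rw [dist_comm y z])) (dist_triangle x y z) (dist_triangle_left y z x)

theorem cat_H : IsCAT ℍ X ↔ IsCAT' ℍ X :=
  cat_iff rigid_H geod_H fun x y z => by
    obtain ⟨θ, hθ⟩ := exists_angle (a := dist x y) (b := dist x z) (c := dist y z) dist_nonneg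
      dist_nonneg (by rw [dist_comm x y, dist_comm x z]; exact abs_dist_sub_le y z x)
      (dist_triangle_left y z x)
    exact ⟨_, _, _, (isGeodesic_rot 0 dist_nonneg).1, (isGeodesic_rot θ dist_nonneg).1, hθ⟩

theorem two (hg : ∀ x y : M, ∃ γ, IsGeodesic γ x y) (h : IsCAT' M X) {x y z : X} {α β : ℝ → X}
    (hα : IsGeodesic α x y) (hβ : IsGeodesic β x z) {x' y' z' : M} {α' β' : ℝ → M}
    (hα' : IsGeodesic α' x' y') (hβ' : IsGeodesic β' x' z') (e1 : dist x' y' = dist x y)
    (e2 : dist x' z' = dist x z) (e3 : dist y' z' = dist y z) {s t : ℝ}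
    (hs : s ∈ Icc 0 (dist x y)) (ht : t ∈ Icc 0 (dist x z)) :
    dist (α s) (β t) ≤ dist (α' s) (β' t) := by
  obtain ⟨c, hc⟩ := h.1 y z
  obtain ⟨c', hc'⟩ := hg y' z'
  have := h.2 ![x, y, z] ![α, c, fun s => β (dist x z - s)]
    (fun i => by fin_cases i; exacts [hα, hc, rev hβ]) ![x', y', z']
    ![α', c', fun s => β' (dist x' z' - s)]
    ⟨fun i => by fin_cases i; exacts [hα', hc', rev hβ'], fun i => by
      fin_cases i
      exacts [e1, e3, by simpa [dist_comm] using e2]⟩ 0 2 s hs (dist x z - t)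
    ⟨by linarith [ht.2], (sub_le_self _ ht.1).trans_eq (dist_comm x z)⟩
  simpa [e2] using this

theorem cat0_of (h : IsCAT (EuclideanSpace ℝ (Fin 2)) X ∨ IsCAT ℍ X) : IsCAT0 X := by
  rcases h with h | h
  · refine ⟨h.1, fun x y z α β hα hβ x' y' z' e1 e2 e3 s hs t ht => ?_⟩
    have := two (fun x y => ⟨_, geod_line x y⟩) (cat_E.1 h) hα hβ (geod_line x' y')
      (geod_line x' z') e1 e2 e3 (s := s * dist x y) (t := t * dist x z)
      ⟨mul_nonneg hs.1 dist_nonneg, mul_le_of_le_one_left dist_nonneg hs.2⟩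
      ⟨mul_nonneg ht.1 dist_nonneg, mul_le_of_le_one_left dist_nonneg ht.2⟩
    have k : ∀ (a b : EuclideanSpace ℝ (Fin 2)) (s : ℝ),
        AffineMap.lineMap a b (s * dist a b / dist a b) = AffineMap.lineMap a b s := fun a b s => by
      rcases eq_or_ne a b with rfl | h
      · simp
      · rw [mul_div_cancel_right₀ _ (dist_pos.2 h).ne']
    rwa [← e1, ← e2, k, k, e1, e2] at this
  · exact isCAT0_of_isCATNegOne ⟨h.1, fun x y z α β hα hβ x' y' z' α' β' hα' hβ' e1 e2 e3 s hs t ht =>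
      two geod_H (cat_H.1 h) hα hβ hα' hβ' e1 e2 e3 hs ht⟩

theorem geometric_iff (G : Type*) [Group G] [MulAction G X] [ProperSpace X] [IsIsometricSMul G X] :
    Geometric G X ↔ IsGeometric G X := by
  refine and_congr ⟨fun h K hK => ?_, fun h x => ⟨_, Metric.closedBall_mem_nhds x one_pos,
    h _ (isCompact_closedBall x 1)⟩⟩ ⟨fun h => ?_, ?_⟩
  · have := (hK.prod hK).induction_on (p := fun W : Set (X × X) =>
      {g : G | ∃ w ∈ W, g • w.1 = w.2}.Finite) (by simp)
      (fun s t st ht => ht.subset fun g ⟨w, a, b⟩ => ⟨w, st a, b⟩)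
      (fun s t hs ht => (hs.union ht).subset fun g ⟨w, a, b⟩ =>
        a.elim (fun a => .inl ⟨w, a, b⟩) fun a => .inr ⟨w, a, b⟩) fun w _ => by
        obtain ⟨U, hU, f⟩ := h w.1
        obtain ⟨r, r0, hr⟩ := Metric.mem_nhds_iff.1 hU
        refine ⟨Metric.ball w (r / 4), mem_nhdsWithin_of_mem_nhds
          (Metric.ball_mem_nhds w (by positivity)), ?_⟩
        rcases {g : G | ∃ v ∈ Metric.ball w (r / 4), g • v.1 = v.2}.eq_empty_or_nonempty with
          k | ⟨g, v, a, b⟩
        · rw [k]; exact finite_empty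
        refine (f.image (g * ·)).subset fun g' ⟨v', a', b'⟩ => ⟨g⁻¹ * g',
          ⟨_, ⟨w.1, hr (Metric.mem_ball_self r0), rfl⟩, hr ?_⟩, by simp⟩
        rw [Metric.mem_ball, Prod.dist_eq, max_lt_iff] at a a'
        beta_reduce
        rw [Metric.mem_ball, ← dist_smul g, mul_smul, smul_inv_smul]
        have t1 := dist_triangle4 (g' • w.1) (g' • v'.1) (g • v.1) (g • w.1)
        rw [dist_smul, dist_smul, b, b', dist_comm w.1] at t1
        linarith [dist_triangle_right v'.2 v.2 w.2, a.1, a.2, a'.1, a'.2]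
    exact this.subset fun g ⟨_, ⟨x, a, rfl⟩, b⟩ => ⟨(x, g • x), ⟨a, b⟩, rfl⟩
  · obtain ⟨T, hT⟩ := (isCompact_univ (X := MulAction.orbitRel.Quotient G X)).elim_finite_subcover
      (fun x : X => Quotient.mk (MulAction.orbitRel G X) '' Metric.ball x 1)
      (fun x => isOpenMap_quotient_mk'_mul _ Metric.isOpen_ball) (by
        rintro ⟨x⟩ -
        exact mem_iUnion.2 ⟨x, x, Metric.mem_ball_self one_pos, rfl⟩)
    refine ⟨⋃ x ∈ T, Metric.closedBall x 1, T.isCompact_biUnion fun x _ => isCompact_closedBall x 1,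
      eq_univ_of_forall fun y => ?_⟩
    obtain ⟨x, hx, z, hz, e⟩ := mem_iUnion₂.1 (hT (mem_univ (Quotient.mk _ y)))
    obtain ⟨g, hg⟩ := Quotient.exact e.symm
    exact mem_iUnion.2 ⟨g, z, mem_iUnion₂.2 ⟨x, hx, Metric.ball_subset_closedBall hz⟩, hg⟩
  · rintro ⟨K, hK, e⟩
    refine ⟨(hK.image (continuous_quotient_mk' (s := MulAction.orbitRel G X))).of_isClosed_subset
      isClosed_univ ?_⟩
    rintro ⟨y⟩ -
    obtain ⟨g, z, hz, rfl⟩ := mem_iUnion.1 (e.symm ▸ mem_univ y :)
    exact ⟨z, hz, Quotient.sound' (MulAction.orbitRel_apply.2 ⟨g⁻¹, by simp⟩)⟩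

end Vale.Agent.P172M11
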