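import Vale.Agent.P172.Defs

/-!
# Geodesic triangles, comparison triangles, CAT spaces, geometric actions
-/

namespace Vale.Agent.P172M11

open Set Topology Vale.Agent.P172

/-- a geodesic triangle with vertices `p i` and sides `γ i` from `p i` to `p (i + 1)` -/
def IsTriangle {X : Type*} [MetricSpace X] (p : Fin 3 → X) (γ : Fin 3 → ℝ → X) : Prop :=
  ∀ i, IsGeodesic (γ i) (p i) (p (i + 1))

/-- `q, η` is a comparison triangle in `M` for the vertices `p`: its sides have the same lengths -/
def IsComparison {X M : Type*} [MetricSpace X] [MetricSpace M] (p : Fin 3 → X) (q : Fin 3 → M)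
    (η : Fin 3 → ℝ → M) : Prop :=
  IsTriangle q η ∧ ∀ i, dist (q i) (q (i + 1)) = dist (p i) (p (i + 1))

/-- distances between points on the sides `γ` are at most the corresponding distances for `η` -/
def NoFatter {X M : Type*} [MetricSpace X] [MetricSpace M] (p : Fin 3 → X) (γ : Fin 3 → ℝ → X)
    (η : Fin 3 → ℝ → M) : Prop :=
  ∀ i j, ∀ s ∈ Icc 0 (dist (p i) (p (i + 1))), ∀ t ∈ Icc 0 (dist (p j) (p (j + 1))),
    dist (γ i s) (γ j t) ≤ dist (η i s) (η j t)

/-- `X` is a geodesic space and every geodesic triangle in `X` is no fatter than a comparison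
triangle in the model plane `M` -/
def IsCAT (M X : Type*) [MetricSpace M] [MetricSpace X] : Prop :=
  (∀ x y : X, ∃ γ, IsGeodesic γ x y) ∧
    ∀ (p : Fin 3 → X) (γ : Fin 3 → ℝ → X), IsTriangle p γ →
      ∃ (q : Fin 3 → M) (η : Fin 3 → ℝ → M), IsComparison p q η ∧ NoFatter p γ η

/-- the same with every comparison triangle -/
def IsCAT' (M X : Type*) [MetricSpace M] [MetricSpace X] : Prop :=
  (∀ x y : X, ∃ γ, IsGeodesic γ x y) ∧
    ∀ (p : Fin 3 → X) (γ : Fin 3 → ℝ → X), IsTriangle p γ →
      ∀ (q : Fin 3 → M) (η : Fin 3 → ℝ → M), IsComparison p q η → NoFatter p γ η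

/-- properly discontinuous (each point has a neighbourhood that meets only finitely many of its
translates) and cocompact (the quotient space is compact) -/
def Geometric (G X : Type*) [Group G] [MetricSpace X] [MulAction G X] : Prop :=
  (∀ x : X, ∃ U ∈ 𝓝 x, {g : G | ((fun y => g • y) '' U ∩ U).Nonempty}.Finite) ∧
    CompactSpace (MulAction.orbitRel.Quotient G X)

end Vale.Agent.P172M11
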