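import Vale.Agent.P172.Defs

/-!
# The Cayley graph as a metric space (each edge of length one) and its geodesic triangles
-/

namespace Vale.Agent.P172M11

open Set Vale.Agent.P172

/-- `Chain e x y r`: there is a piecewise linear path of length `r` from `x` to `y`, made of
finitely many segments, each of which lies inside one edge `e i`. -/
inductive Chain {ι X : Type} (e : ι → unitInterval → X) (x : X) : X → ℝ → Prop
  | nil : Chain e x x 0
  | step (i : ι) (t u : unitInterval) (r : ℝ) :
      Chain e x (e i t) r → Chain e x (e i u) (r + |(t : ℝ) - u|)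

/-- `X` is the Cayley graph of `G` with respect to `S`: one vertex `v g` for each `g`, one edge
`e (g, s)` of length one from `v g` to `v (g * s)` for each `g` in `G` and `s` in `S`, no other
points and no other identifications, and the distance of two points is the infimum of the lengths
of the piecewise linear paths between them. -/
structure IsCayley {G : Type} [Group G] (S : Finset G) (X : Type) [MetricSpace X] (v : G → X)
    (e : G × S → unitInterval → X) : Prop where
  start : ∀ g s, e (g, s) 0 = v g
  stop : ∀ g s, e (g, s) 1 = v (g * s)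
  cover : ∀ x, (∃ g, v g = x) ∨ ∃ i t, e i t = x
  inj : Function.Injective v
  inner : ∀ i t, t ≠ 0 → t ≠ 1 → (∀ g, v g ≠ e i t) ∧ ∀ j u, e j u = e i t → j = i ∧ u = t
  dist_eq : ∀ x y, IsGLB {r | Chain e x y r} (dist x y)

/-- Each side of every geodesic triangle lies in the `δ`-neighbourhood of the union of the other
two sides. -/
def SlimTriangles (X : Type) [MetricSpace X] (δ : ℝ) : Prop :=
  ∀ (x y z : X) (a b c : ℝ → X), IsGeodesic a x y → IsGeodesic b y z → IsGeodesic c z x →
    a '' Icc 0 (dist x y) ⊆ Metric.thickening δ (b '' Icc 0 (dist y z) ∪ c '' Icc 0 (dist z x))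

/-- Two points of a geodesic triangle with the same image in the comparison tripod are at distance
at most `δ`. -/
def TripodThin (X : Type) [MetricSpace X] (δ : ℝ) : Prop :=
  ∀ (x y z : X) (a b : ℝ → X), IsGeodesic a x y → IsGeodesic b x z →
    ∀ t ∈ Icc 0 ((dist x y + dist x z - dist y z) / 2), dist (a t) (b t) ≤ δ

/-- The Cayley graph of `G` with respect to `S` is a geodesic space with `δ`-thin geodesic
triangles (in both senses) for some `δ ≥ 0`. -/
def HypCayley {G : Type} [Group G] (S : Finset G) : Prop :=
  ∃ (X : Type) (_ : MetricSpace X) (v : G → X) (e : G × S → unitInterval → X),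
    IsCayley S X v e ∧ (∀ x y : X, ∃ γ, IsGeodesic γ x y) ∧
      ∃ δ : ℝ, 0 ≤ δ ∧ SlimTriangles X δ ∧ TripodThin X δ

end Vale.Agent.P172M11
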