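import Vale.Agent.P172M11.Main
import Vale.Agent.P186W94.Stokes

/-!
# Hyperbolicity of the Cayley graph does not depend on the finite generating set
-/

namespace Vale.Agent.P172M11

open Set SimpleGraph Vale.Agent.P172 Vale.Agent.P198.H Vale.Agent.P198V Vale.Agent.P186W94

section graph

variable {V : Type} {Γ : SimpleGraph V}

theorem split {x y : V} (c : Γ.Walk x y) {j : ℕ} (hj : j ≤ c.length) :
    ∃ (z : V) (p : Γ.Walk x z) (q : Γ.Walk z y), c = p.append q ∧ p.length = j :=
  ⟨_, c.take j, c.drop j, (c.append_take_drop_eq j).symm, by simp [hj]⟩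

theorem st_ball {f g : V → ℤ} (hg : ∀ u v, Γ.Adj u v → |g u - g v| ≤ 1) (m R : ℤ) {a v : V}
    (q : Γ.Walk a v) (h : ∀ w ∈ q.support, |f w - m| ≤ R) :
    |st f g q - 2 * m * (g v - g a)| ≤ 2 * R * q.length := by
  induction q with
  | nil => simp [st_nil]
  | @cons a b v e q ih =>
    have h3 := ih fun w hw => h w (by simp [hw])
    have ha := h a (by simp)
    have hb := h b (by simp)
    have k : st f g (Walk.cons e q) - 2 * m * (g v - g a) =
        ((f a - m) + (f b - m)) * (g b - g a) + (st f g q - 2 * m * (g v - g b)) := by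
      rw [st_cons]; ring
    have h4 : |((f a - m) + (f b - m)) * (g b - g a)| ≤ (R + R) * 1 := by
      rw [abs_mul, abs_sub_comm (g b)]
      exact mul_le_mul ((abs_add_le _ _).trans (add_le_add ha hb)) (hg a b e) (abs_nonneg _)
        (by linarith [abs_nonneg (f a - m)])
    rw [k, Walk.length_cons]
    refine (abs_add_le _ _).trans ((add_le_add h4 h3).trans_eq ?_)
    push_cast; ring

theorem stokes_of (hc : Γ.Connected) {K : ℕ} (H : ∀ p a b x, Γ.dist a p + Γ.dist p b = Γ.dist a b →
      Γ.dist a p + Γ.dist x p ≤ Γ.dist x a + K ∨ Γ.dist p b + Γ.dist x p ≤ Γ.dist x b + K) :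
    P186.Hyp.StokesIneq Γ (16 * (K + 1) ^ 2) := by
  classical
  intro f g hf hg x c
  change |st f g c| ≤ _
  induction hn : c.length using Nat.strong_induction_on generalizing c with
  | _ n ih =>
  obtain ⟨p, hp, hm⟩ := c.support.toFinset.exists_max_image (Γ.dist x) ⟨x, by simp⟩
  simp only [List.mem_toFinset] at hp hm
  have K0 : (0 : ℤ) ≤ K := K.cast_nonneg
  by_cases hD : Γ.dist x p ≤ K
  · have := st_ball hg (f x) K c fun w hw => by
      rw [abs_sub_comm]
      exact (lip_dist hc hf x w).trans (by exact_mod_cast (hm w hw).trans hD)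
    rw [sub_self, mul_zero, sub_zero, hn] at this
    refine this.trans ?_
    push_cast
    exact mul_le_mul_of_nonneg_right (by nlinarith) n.cast_nonneg
  obtain ⟨u, w, rfl⟩ := Walk.mem_support_iff_exists_append.1 hp
  have l1 := SimpleGraph.dist_le u
  have l2 := SimpleGraph.dist_le w
  rw [SimpleGraph.dist_comm] at l2
  obtain ⟨a, u1, u2, rfl, e1⟩ := split u (j := u.length - (K + 1)) (by omega)
  obtain ⟨b, w1, w2, rfl, e2⟩ := split w (j := K + 1) (by omega)
  simp only [Walk.length_append] at e1 l1 l2 hn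
  have da := hm a (by simp)
  have db := hm b (by simp)
  have d1 := SimpleGraph.dist_le u2
  have d2 := SimpleGraph.dist_le w1
  have d3 := hc.dist_triangle (u := a) (v := p) (w := b)
  have lt : Γ.dist a b < 2 * (K + 1) := by
    by_contra k
    rcases H p a b x (by omega) with k' | k' <;> omega
  obtain ⟨q, hq⟩ := hc.exists_walk_length_eq_dist a b
  have h1 := ih _ (by simp only [Walk.length_append]; omega) (u1.append (q.append w2)) rfl
  have h2 := st_ball hg (f a) (2 * (K + 1)) q fun z hz => by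
    obtain ⟨s, t, rfl⟩ := Walk.mem_support_iff_exists_append.1 hz
    have := SimpleGraph.dist_le s
    rw [Walk.length_append] at hq
    rw [abs_sub_comm]
    exact (lip_dist hc hf a z).trans (by exact_mod_cast (by omega))
  have h3 := st_ball hg (f a) (2 * (K + 1)) (u2.append w1) fun z hz => by
    obtain ⟨s, t, k⟩ := Walk.mem_support_iff_exists_append.1 hz
    have := SimpleGraph.dist_le s
    have k' := congrArg Walk.length k
    simp only [Walk.length_append] at k'
    rw [abs_sub_comm]
    exact (lip_dist hc hf a z).trans (by exact_mod_cast (by omega))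
  simp only [st_append, Walk.length_append] at h1 h3 ⊢
  have n1 : ((u2.length + w1.length : ℕ) : ℤ) = 2 * (K + 1) := by exact_mod_cast (by omega)
  have n2 : (q.length : ℤ) ≤ 2 * (K + 1) := by exact_mod_cast (by omega)
  have n3 : ((u1.length + (q.length + w2.length) : ℕ) : ℤ) + 1 ≤ n := by exact_mod_cast (by omega)
  rw [n1] at h3
  have n4 := mul_le_mul_of_nonneg_left n2 (show (0 : ℤ) ≤ 2 * (2 * (K + 1)) by positivity)
  have n5 := mul_le_mul_of_nonneg_left n3 (show (0 : ℤ) ≤ 16 * (K + 1) ^ 2 by positivity)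
  push_cast at h1 n5 ⊢
  rw [abs_le] at h1 h2 h3 ⊢
  constructor <;> nlinarith

end graph

variable {G : Type} [Group G] {S : Finset G} (hS : Subgroup.closure (S : Set G) = ⊤)
include hS

theorem thin_of_hyp (h : HypCayley S) : ∃ δ, Thin S δ := by
  obtain ⟨X, _, v, e, hX, -, δ, -, h, -⟩ := h
  obtain ⟨f, -⟩ := hX.iso hS
  refine ⟨_, thin_of_slim (hS := hS) (δ := δ) fun x y z a b c l m n ha hb hc s hs => ?_⟩
  have k : ∀ {a : ℝ → Cay hS} {l x y}, IsSeg a l x y → IsGeodesic (f ∘ a) (f x) (f y) :=
    fun {a l x y} ha => by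
      rw [IsGeodesic, f.dist_eq, seg_len ha]
      exact ⟨by simp [ha.start], by simp [ha.stop], fun s hs t ht => by
        simpa [f.dist_eq] using ha.iso s hs t ht⟩
  have := h _ _ _ _ _ _ (k ha) (k hb) (k hc) ⟨s, by rwa [f.dist_eq, seg_len ha], rfl⟩
  rw [f.dist_eq, f.dist_eq, seg_len hb, seg_len hc] at this
  obtain ⟨w, hw, d⟩ := Metric.mem_thickening_iff.1 this
  rcases hw with ⟨t, ht, rfl⟩ | ⟨t, ht, rfl⟩
  · exact ⟨_, .inl ⟨t, ht, rfl⟩, by simpa [f.dist_eq] using d.le⟩
  · exact ⟨_, .inr ⟨t, ht, rfl⟩, by simpa [f.dist_eq] using d.le⟩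

theorem four_of_thin' {δ : ℕ} (h : Thin S δ) (o x y z : G) :
    wdist S o x + wdist S o y + wdist S x z ≤ wdist S o x + wdist S o z + wdist S x y + (6 * δ + 2) ∨
    wdist S o y + wdist S o z + wdist S x z ≤ wdist S o x + wdist S o z + wdist S y z + (6 * δ + 2) := by
  have := four_point_of_thin hS h (o⁻¹ * x) (o⁻¹ * y) (o⁻¹ * z)
  simp only [← gro_vtx hS, gro, dist_vtx] at this
  rcases min_le_iff.1 (sub_le_iff_le_add.1 this) with a | a
  · left
    exact_mod_cast (show (wdist S o x + wdist S o y + wdist S x z : ℝ) ≤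
      wdist S o x + wdist S o z + wdist S x y + (6 * δ + 2) by linarith)
  · right
    exact_mod_cast (show (wdist S o y + wdist S o z + wdist S x z : ℝ) ≤
      wdist S o x + wdist S o z + wdist S y z + (6 * δ + 2) by linarith)

theorem every {T : Finset G} (hT : Subgroup.closure (T : Set G) = ⊤) (h : HypCayley S) :
    HypCayley T := by
  obtain ⟨δ, h⟩ := thin_of_hyp hS h
  have := stokes_of (P186.Hyp.conn G _ hS) (K := 6 * δ + 2) fun p a b x e => by
    have h4 := four_of_thin' hS h p a x b
    simp only [P198.H372.dist_eq hS] at e ⊢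
    rw [wdist_comm a p] at e ⊢
    rw [wdist_comm x p, wdist_comm x a]
    omega
  obtain ⟨d, hd⟩ := thin_all hS this hT
  exact hyp_of_thin hT (thin_of_walks hT hd)

end Vale.Agent.P172M11
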