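import Vale.Agent.P172M11.Every
import Vale.Agent.P172M11.Cat
import Vale.Agent.P172V.Final

/-!
# P172 with the metric Cayley graph: assembly
-/

namespace Vale.Agent.P172M11

open Vale.Agent.P172 Vale.Agent.P172.H372

universe u

theorem proper_iff (G X : Type*) [Group G] [MetricSpace X] [MulAction G X] [ProperSpace X]
    [IsIsometricSMul G X] : Geometric G X ↔ ProperlyDiscontinuousSMul G X ∧
      ∃ K : Set X, IsCompact K ∧ ⋃ g : G, (fun x => g • x) '' K = Set.univ := by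
  rw [geometric_iff]
  refine and_congr_left' ⟨fun h => ⟨fun {K L} hK hL => (h _ (hK.union hL)).subset ?_⟩,
    fun h K hK => h.1 hK hK⟩
  rintro g ⟨_, ⟨x, a, rfl⟩, b⟩
  exact ⟨_, ⟨x, .inl a, rfl⟩, .inr b⟩

theorem group : ∃ (G : Type) (_ : Group G), Group.FG G ∧
    (∀ S : Finset G, Subgroup.closure (S : Set G) = ⊤ → HypCayley S) ∧
    ∀ (X : Type u) [MetricSpace X] [MulAction G X], Nonempty X → ProperSpace X →
      IsIsometricSMul G X → IsCAT (EuclideanSpace ℝ (Fin 2)) X ∨ IsCAT UpperHalfPlane X →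
      ¬ Geometric G X := by
  obtain ⟨G, _, ⟨S, hS, δ, hδ⟩, h⟩ := P172V.main_final.{u}
  refine ⟨G, inferInstance, ⟨⟨S, hS⟩⟩, fun T hT =>
    every hS hT (hyp_of_thin hS (thin_of_walks hS hδ)), fun X _ _ h1 h2 h3 h4 h5 => ?_⟩
  exact h X h1 h2 h3 (.inl (cat0_of h4)) ((geometric_iff G).1 h5)

end Vale.Agent.P172M11
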