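import Vale.Agent.P198V50.Ext
import Vale.Agent.P198.H.Four
import Vale.Agent.P198.H372.Bridge

/-!
# The metric Cayley graph: thin vertex triangles make all geodesic triangles slim
-/

namespace Vale.Agent.P172M11

open Set Vale.Agent.P198.H Vale.Agent.P198V

section space

variable {X : Type} [MetricSpace X]

theorem seg_left {c : ℝ → X} {l s : ℝ} {x y : X} (h : IsSeg c l x y) (hs : s ∈ Icc 0 l) :
    dist x (c s) = s := by
  have := h.iso 0 ⟨le_rfl, h.nonneg⟩ s hs
  rwa [h.start, zero_sub, abs_neg, abs_of_nonneg hs.1] at this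

theorem seg_right {c : ℝ → X} {l s : ℝ} {x y : X} (h : IsSeg c l x y) (hs : s ∈ Icc 0 l) :
    dist (c s) y = l - s := by
  have := h.iso s hs l ⟨h.nonneg, le_rfl⟩
  rwa [h.stop, abs_sub_comm, abs_of_nonneg (sub_nonneg.2 hs.2)] at this

theorem seg_len {c : ℝ → X} {l : ℝ} {x y : X} (h : IsSeg c l x y) : dist x y = l := by
  have := seg_left h ⟨h.nonneg, le_rfl⟩
  rwa [h.stop] at this

variable {K : ℝ} (h4 : ∀ o x y z : X, min (gro o x y) (gro o y z) - K ≤ gro o x z)
include h4

/-- a geodesic from `x` to `y` passes near `p` when the Gromov product at `p` is small -/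
theorem near_seg {c : ℝ → X} {l : ℝ} {x y : X} (h : IsSeg c l x y) (p : X) :
    ∃ w ∈ c '' Icc 0 l, dist p w ≤ gro p x y + 2 * K := by
  have e := seg_len h
  have t1 := dist_triangle p x y
  have t2 := dist_triangle_left x y p
  have t3 := dist_triangle_right p x y
  rw [dist_comm p x] at t1 t2 t3
  have hs : (dist x p + dist x y - dist p y) / 2 ∈ Icc 0 l := ⟨by linarith, by linarith⟩
  refine ⟨_, ⟨_, hs, rfl⟩, ?_⟩
  have a1 := seg_left h hs
  have a2 := seg_right h hs
  have := h4 p x (c ((dist x p + dist x y - dist p y) / 2)) y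
  simp only [gro] at this ⊢
  rw [a1, a2, dist_comm p x] at this
  rw [dist_comm p x]
  rcases min_le_iff.1 (sub_le_iff_le_add.1 this) with a | a <;> linarith

theorem slim_of_four : Slim X (3 * K) := by
  intro x y z a b c l m n ha hb hc s hs
  have e : gro (a s) x y = 0 := by
    rw [gro, dist_comm, seg_left ha hs, seg_right ha hs, seg_len ha]; ring
  have := h4 (a s) x z y
  rw [e] at this
  rcases min_le_iff.1 (sub_nonpos.1 this) with k | k
  · obtain ⟨w, hw, d⟩ := near_seg h4 hc (a s)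
    refine ⟨w, .inr hw, d.trans ?_⟩
    simp only [gro] at k ⊢
    rw [dist_comm z x]; linarith
  · obtain ⟨w, hw, d⟩ := near_seg h4 hb (a s)
    refine ⟨w, .inl hw, d.trans ?_⟩
    simp only [gro] at k ⊢
    rw [dist_comm y z]; linarith

end space

variable {G : Type} [Group G] {S : Finset G} (hS : Subgroup.closure (S : Set G) = ⊤)

theorem gro_vtx (o g h : G) : gro (vtx hS o) (vtx hS g) (vtx hS h) = gp S (o⁻¹ * g) (o⁻¹ * h) := by
  rw [gro, dist_vtx, dist_vtx, dist_vtx, ← wdist_mul_left o⁻¹ g h]; rfl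

theorem gro_near {X : Type} [MetricSpace X] {o x y o' x' y' : X} (ho : dist o o' ≤ 1)
    (hx : dist x x' ≤ 1) (hy : dist y y' ≤ 1) : gro o x y ≤ gro o' x' y' + 3 := by
  have t1 := dist_triangle4 o o' x' x
  have t2 := dist_triangle4 o o' y' y
  have t3 := dist_triangle4 x' x y y'
  rw [dist_comm x' x] at t1 t3
  rw [dist_comm y' y] at t2
  simp only [gro]
  linarith

theorem four_of_thin {δ : ℕ} (h : Thin S δ) (o x y z : Cay hS) :
    min (gro o x y) (gro o y z) - (3 * δ + 7) ≤ gro o x z := by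
  obtain ⟨o', ho⟩ := near o
  obtain ⟨x', hx⟩ := near x
  obtain ⟨y', hy⟩ := near y
  obtain ⟨z', hz⟩ := near z
  have a1 := gro_near ho hx hy
  have a2 := gro_near ho hy hz
  rw [dist_comm] at ho hx hz
  have a3 := gro_near ho hx hz
  have := four_point_of_thin hS h (o'⁻¹ * x') (o'⁻¹ * y') (o'⁻¹ * z')
  rw [gro_vtx] at a1 a2 a3
  have m1 := min_le_left (gro o x y) (gro o y z)
  have m2 := min_le_right (gro o x y) (gro o y z)
  rcases min_le_iff.1 (sub_le_iff_le_add.1 this) with a | a <;> linarith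

theorem slim_of_thin {δ : ℕ} (h : Thin S δ) : Slim (Cay hS) (3 * (3 * δ + 7)) :=
  slim_of_four (four_of_thin hS h)

include hS in
/-- thin triangles of edge walks in Mathlib's Cayley graph -/
theorem thin_of_walks {δ : ℕ} (h : ∀ (x y z : G)
      (p : (SimpleGraph.mulCayley (S : Set G)).Walk x y)
      (q : (SimpleGraph.mulCayley (S : Set G)).Walk y z)
      (r : (SimpleGraph.mulCayley (S : Set G)).Walk z x),
      p.length = (SimpleGraph.mulCayley (S : Set G)).dist x y →
      q.length = (SimpleGraph.mulCayley (S : Set G)).dist y z →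
      r.length = (SimpleGraph.mulCayley (S : Set G)).dist z x →
      ∀ v ∈ p.support, ∃ w : G, (w ∈ q.support ∨ w ∈ r.support) ∧
        (SimpleGraph.mulCayley (S : Set G)).dist v w ≤ δ) :
    Thin S δ := by
  intro x y z a b c l m n ha hb hc i hi
  obtain ⟨p, hp, hp'⟩ := P198.H372.walk_of_geod hS ha
  obtain ⟨q, hq, hq'⟩ := P198.H372.walk_of_geod hS hb
  obtain ⟨r, hr, hr'⟩ := P198.H372.walk_of_geod hS hc
  obtain ⟨w, hw, hd⟩ := h x y z p q r hp hq hr (a i) ((hp' _).2 ⟨i, hi, rfl⟩)
  rw [P198.H372.dist_eq hS] at hd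
  rcases hw with hw | hw
  · obtain ⟨j, hj, rfl⟩ := (hq' w).1 hw
    exact Or.inl ⟨j, hj, hd⟩
  · obtain ⟨j, hj, rfl⟩ := (hr' w).1 hw
    exact Or.inr ⟨j, hj, hd⟩

end Vale.Agent.P172M11
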