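import Vale.Agent.P172M11.Defs
import Vale.Agent.P172M11.Slim

/-!
# Existence and uniqueness of the metric Cayley graph; vertex-thin implies thin
-/

namespace Vale.Agent.P172M11

open Set Vale.Agent.P172 Vale.Agent.P198.H Vale.Agent.P198V

section chain

variable {ι X : Type} {e : ι → unitInterval → X} {x y z : X} {r r' : ℝ}

theorem Chain.trans (h : Chain e x y r) (h' : Chain e y z r') : Chain e x z (r + r') := by
  induction h' with
  | nil => simpa using h
  | step i t u r _ ih => rw [← add_assoc]; exact ih.step i t u _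

theorem Chain.one (i : ι) (t u : unitInterval) : Chain e (e i t) (e i u) |(t : ℝ) - u| := by
  simpa using (Chain.nil (e := e) (x := e i t)).step i t u _

theorem Chain.symm (h : Chain e x y r) : Chain e y x r := by
  induction h with
  | nil => exact .nil
  | step i t u r _ ih =>
    rw [add_comm, abs_sub_comm]
    exact (Chain.one i u t).trans ih

end chain

variable {G : Type} [Group G] {S : Finset G} (hS : Subgroup.closure (S : Set G) = ⊤)
  {X : Type} (v : G → X) (e : G × S → unitInterval → X)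

/-- the point of `X` named by a point of the model -/
def phi : Pt hS → X
  | .inl g => v g
  | .inr p => e (p.1, p.2.1) p.2.2

theorem dist_mem (p q : Pt hS) : dist p q ∈ lens p q := by
  have f : (lens p q).Finite := by
    refine .union (Set.Subsingleton.finite ?_) ((Set.finite_range fun ab : Bool × Bool =>
      p.cost ab.1 + wdist S (p.fin ab.1) (q.fin ab.2) + q.cost ab.2).subset ?_)
    · rintro _ ⟨g, s, t, u, rfl, rfl, rfl⟩ _ ⟨g', s', t', u', h1, h2, rfl⟩
      cases h1; cases h2; rfl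
    · rintro _ ⟨a, b, rfl⟩
      exact ⟨(a, b), rfl⟩
  exact (lens_ne p q).csInf_mem f

variable {v e} (h0 : ∀ g s, e (g, s) 0 = v g) (h1 : ∀ g s, e (g, s) 1 = v (g * s))
include h0 h1

theorem chain_word (l : List G) (hl : ∀ x ∈ l, x ∈ S ∨ x⁻¹ ∈ S) (g : G) :
    Chain e (v g) (v (g * l.prod)) l.length := by
  have st : ∀ g (s : S), Chain e (v g) (v (g * s)) 1 := fun g s => by
    simpa [h0, h1] using Chain.one (e := e) (g, s) 0 1
  induction l generalizing g with
  | nil => simpa using Chain.nil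
  | cons x l ih =>
    have a : Chain e (v g) (v (g * x)) 1 := by
      rcases hl x (by simp) with a | a
      · exact st g ⟨x, a⟩
      · simpa using (st (g * x) ⟨x⁻¹, a⟩).symm
    have := a.trans (ih (fun y hy => hl y (by simp [hy])) (g * x))
    rw [List.prod_cons, List.length_cons, ← mul_assoc, Nat.cast_succ, add_comm]
    exact this

theorem chain_fin (p : Pt hS) (a : Bool) : Chain e (phi hS v e p) (v (p.fin a)) (p.cost a) := by
  rcases p with g | ⟨g, s, t⟩
  · exact .nil
  cases a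
  · have := Chain.one (e := e) (g, s) t 0
    rwa [h0, Set.Icc.coe_zero, sub_zero, abs_of_nonneg t.2.1] at this
  · have := Chain.one (e := e) (g, s) t 1
    rwa [h1, Set.Icc.coe_one, abs_sub_comm, abs_of_nonneg (sub_nonneg.2 t.2.2)] at this

theorem chain_dist (p q : Pt hS) : Chain e (phi hS v e p) (phi hS v e q) (dist p q) := by
  rcases dist_mem hS p q with ⟨g, s, t, u, rfl, rfl, k⟩ | ⟨a, b, k⟩
  · rw [k]; exact .one (g, s) t u
  · obtain ⟨l, k1, k2, k3⟩ := exists_word hS ((p.fin a)⁻¹ * q.fin b)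
    have := chain_word h0 h1 l k2 (p.fin a)
    rw [k3, mul_inv_cancel_left, k1] at this
    rw [k]
    exact ((chain_fin hS h0 h1 p a).trans this).trans (chain_fin hS h0 h1 q b).symm

omit h0 h1 in
theorem le_chain (hz : ∀ p q, phi hS v e p = phi hS v e q → dist p q = 0) (p : Pt hS) {y : X}
    {r : ℝ} (h : Chain e (phi hS v e p) y r) : ∀ q, phi hS v e q = y → dist p q ≤ r := by
  induction h with
  | nil => exact fun q k => (hz p q k.symm).le
  | step i t u r _ ih =>
    intro q k
    have a := ih (.inr (i.1, i.2, t)) rfl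
    have b : dist (α := Pt hS) (.inr (i.1, i.2, t)) (.inr (i.1, i.2, u)) ≤ |(t : ℝ) - u| :=
      inf_le (.inl ⟨_, _, _, _, rfl, rfl, rfl⟩)
    have c := hz (.inr (i.1, i.2, u)) q k.symm
    linarith [dist_triangle4 p (.inr (i.1, i.2, t)) (.inr (i.1, i.2, u)) q]

theorem glb (hz : ∀ p q, phi hS v e p = phi hS v e q → dist p q = 0) (p q : Pt hS) :
    IsGLB {r | Chain e (phi hS v e p) (phi hS v e q) r} (dist p q) :=
  IsLeast.isGLB ⟨chain_dist hS h0 h1 p q, fun _ h => le_chain hS hz p h q rfl⟩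

omit h0 h1

theorem inner_of_zero {i : G × S} {t : unitInterval} (t0 : t ≠ 0) (t1 : t ≠ 1) {q : Pt hS}
    (h : dist (α := Pt hS) (.inr (i.1, i.2, t)) q = 0) : q = .inr (i.1, i.2, t) := by
  have m := dist_mem hS (.inr (i.1, i.2, t)) q
  rw [h] at m
  rcases m with ⟨g, s, t', u, k, rfl, k'⟩ | ⟨a, b, k⟩
  · cases k
    rw [Subtype.ext (sub_eq_zero.1 (abs_eq_zero.1 k'.symm))]
  · exfalso
    have a1 := q.cost_nonneg b
    have a2 : (0 : ℝ) ≤ wdist S (Pt.fin (hS := hS) (.inr (i.1, i.2, t)) a) (q.fin b) :=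
      Nat.cast_nonneg _
    have a3 : (0 : ℝ) < t := lt_of_le_of_ne t.2.1 fun k => t0 (Subtype.ext k.symm)
    have a4 : (t : ℝ) < 1 := lt_of_le_of_ne t.2.2 fun k => t1 (Subtype.ext k)
    cases a <;> simp only [Pt.cost] at k a1 <;> linarith

theorem model : IsCayley S (Cay hS) (vtx hS) fun i t => pt (.inr (i.1, i.2, t)) := by
  have k0 : ∀ g (s : S), pt (.inr (g, s, 0) : Pt hS) = vtx hS g := fun g s =>
    dist_le_zero.1 (dist_fin (.inr (g, s, 0) : Pt hS) false)
  have k1 : ∀ g (s : S), pt (.inr (g, s, 1) : Pt hS) = vtx hS (g * s) := fun g s =>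
    dist_le_zero.1 ((dist_fin (.inr (g, s, 1) : Pt hS) true).trans_eq (sub_self _))
  have z : ∀ p q : Pt hS, pt p = pt q → dist p q = 0 := fun p q k => by
    rw [← SeparationQuotient.dist_mk]; exact dist_eq_zero.2 k
  have ph : ∀ p, phi hS (vtx hS) (fun i t => pt (.inr (i.1, i.2, t))) p = pt p := by
    rintro (g | p) <;> rfl
  refine ⟨k0, k1, fun x => ?_, fun g h k => ?_, fun i t t0 t1 => ⟨fun g k => ?_, fun j u k => ?_⟩,
    fun x y => ?_⟩
  · obtain ⟨g | p, rfl⟩ := SeparationQuotient.surjective_mk x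
    exacts [.inl ⟨g, rfl⟩, .inr ⟨(p.1, p.2.1), p.2.2, rfl⟩]
  · have := dist_vtx (hS := hS) g h
    rw [k, dist_self] at this
    exact (wdist_eq_zero hS).1 (by exact_mod_cast this.symm)
  · exact Sum.inl_ne_inr (inner_of_zero hS t0 t1 (z _ (.inl g) k.symm))
  · have := Sum.inr.inj (inner_of_zero hS t0 t1 (z _ (.inr (j.1, j.2, u)) k.symm))
    simp only [Prod.mk.injEq] at this
    exact ⟨Prod.ext this.1 this.2.1, this.2.2⟩
  · obtain ⟨p, rfl⟩ := SeparationQuotient.surjective_mk x
    obtain ⟨q, rfl⟩ := SeparationQuotient.surjective_mk y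
    have := glb hS k0 k1 (fun p q k => z p q (by rwa [ph, ph] at k)) p q
    rwa [ph, ph, ← SeparationQuotient.dist_mk] at this

variable [MetricSpace X]

theorem IsCayley.zero (h : IsCayley S X v e) (p q : Pt hS) (k : phi hS v e p = phi hS v e q) :
    dist p q = 0 := by
  have key : ∀ p : Pt hS, (∃ g, phi hS v e p = v g ∧ dist (α := Pt hS) p (.inl g) = 0) ∨
      ∀ q, phi hS v e q = phi hS v e p → q = p := by
    rintro (g | ⟨g, s, t⟩)
    · exact .inl ⟨g, rfl, dist_self _⟩
    by_cases t0 : t = 0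
    · subst t0
      exact .inl ⟨g, h.start g s, le_antisymm ((SeparationQuotient.dist_mk _ _).symm.trans_le
        (dist_fin (.inr (g, s, 0) : Pt hS) false)) dist_nonneg⟩
    by_cases t1 : t = 1
    · subst t1
      exact .inl ⟨g * s, h.stop g s, le_antisymm ((SeparationQuotient.dist_mk _ _).symm.trans_le
        ((dist_fin (.inr (g, s, 1) : Pt hS) true).trans_eq (sub_self _))) dist_nonneg⟩
    refine .inr ?_
    rintro (g' | ⟨g', s', t'⟩) k
    · exact absurd k ((h.inner (g, s) t t0 t1).1 g')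
    · obtain ⟨a, rfl⟩ := (h.inner (g, s) t t0 t1).2 (g', s') t' k
      cases a; rfl
  rcases key p with ⟨g, a, b⟩ | a
  · rcases key q with ⟨g', a', b'⟩ | a'
    · obtain rfl : g = g' := h.inj (by rw [← a, ← a', k])
      exact le_antisymm (by linarith [dist_triangle_right p q (.inl g)]) dist_nonneg
    · rw [a' p k, dist_self]
  · rw [a q k.symm, dist_self]

theorem IsCayley.iso (h : IsCayley S X v e) : ∃ f : Cay hS ≃ᵢ X, ∀ p, f (pt p) = phi hS v e p := by
  have d : ∀ p q, dist (phi hS v e p) (phi hS v e q) = dist p q := fun p q =>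
    (h.dist_eq _ _).unique (glb hS h.start h.stop (h.zero hS) p q)
  choose o ho using SeparationQuotient.surjective_mk (X := Pt hS)
  have k : ∀ p, phi hS v e (o (pt p)) = phi hS v e p := fun p => by
    rw [← dist_eq_zero, d, ← SeparationQuotient.dist_mk, ho, dist_self]
  have i : Isometry fun x => phi hS v e (o x) := .of_dist_eq fun x y => by
    rw [d, ← SeparationQuotient.dist_mk, ho, ho]
  refine ⟨⟨.ofBijective _ ⟨i.injective, fun x => ?_⟩, i⟩, k⟩
  rcases h.cover x with ⟨g, rfl⟩ | ⟨j, t, rfl⟩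
  exacts [⟨_, k (.inl g)⟩, ⟨_, k (.inr (j.1, j.2, t))⟩]

theorem seg_of_geo {c : ℝ → X} {x y : X} (h : IsGeodesic c x y) : IsSeg c (dist x y) x y :=
  ⟨dist_nonneg, h.1, h.2.1, h.2.2⟩

include hS in
theorem IsCayley.geod (h : IsCayley S X v e) (x y : X) : ∃ γ, IsGeodesic γ x y := by
  obtain ⟨f, -⟩ := h.iso hS
  obtain ⟨c, hc⟩ := geodesic (f.symm x) (f.symm y)
  rw [f.symm.dist_eq] at hc
  exact ⟨f ∘ c, by simp [hc.start], by simp [hc.stop], fun s hs t ht => by
    simpa [f.dist_eq] using hc.iso s hs t ht⟩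

include hS in
theorem IsCayley.dist_v (h : IsCayley S X v e) (g g' : G) :
    dist (v g) (v g') = (SimpleGraph.mulCayley (S : Set G)).dist g g' := by
  obtain ⟨f, hf⟩ := h.iso hS
  rw [P198.H372.dist_eq hS, ← dist_vtx (hS := hS), ← f.dist_eq]
  exact congrArg₂ _ (hf (.inl g)).symm (hf (.inl g')).symm

include hS in
theorem IsCayley.unique (h : IsCayley S X v e) {X' : Type} [MetricSpace X'] {v' : G → X'}
    {e' : G × S → unitInterval → X'} (h' : IsCayley S X' v' e') :
    ∃ f : X ≃ᵢ X', (∀ g, f (v g) = v' g) ∧ ∀ i t, f (e i t) = e' i t := by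
  obtain ⟨f, hf⟩ := h.iso hS
  obtain ⟨f', hf'⟩ := h'.iso hS
  have k : ∀ p, (f.symm.trans f') (phi hS v e p) = phi hS v' e' p := fun p => by
    rw [← hf, ← hf']; simp
  exact ⟨f.symm.trans f', fun g => k (.inl g), fun i t => k (.inr (i.1, i.2, t))⟩

theorem tripod_of_four {K : ℝ} (h4 : ∀ o x y z : X, min (gro o x y) (gro o y z) - K ≤ gro o x z) :
    TripodThin X (4 * K) := by
  intro x y z a b ha hb t ht
  have t1 := dist_triangle_left x z y
  have t2 := dist_triangle x z y
  rw [dist_comm y x] at t1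
  rw [dist_comm z y] at t2
  have ty : t ∈ Icc 0 (dist x y) := ⟨ht.1, by linarith [ht.2]⟩
  have tz : t ∈ Icc 0 (dist x z) := ⟨ht.1, by linarith [ht.2]⟩
  have a1 := seg_left (seg_of_geo ha) ty
  have a2 := seg_right (seg_of_geo ha) ty
  have b1 := seg_left (seg_of_geo hb) tz
  have b2 := seg_right (seg_of_geo hb) tz
  have c1 := h4 x (a t) y z
  have c2 := h4 x (a t) z (b t)
  have k := h4 x x x x
  rw [min_self] at k
  have ht2 := ht.2
  simp only [gro] at c1 c2
  rw [dist_comm z (b t)] at c2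
  rcases min_le_iff.1 (sub_le_iff_le_add.1 c1) with c1 | c1 <;>
    rcases min_le_iff.1 (sub_le_iff_le_add.1 c2) with c2 | c2 <;> linarith

include hS in
theorem hyp_of_thin {δ : ℕ} (h : Thin S δ) : HypCayley S := by
  have h4 := four_of_thin hS h
  refine ⟨Cay hS, inferInstance, _, _, model hS, (model hS).geod hS, 4 * (3 * δ + 7),
    by positivity, fun x y z a b c ha hb hc => ?_, tripod_of_four h4⟩
  rintro _ ⟨s, hs, rfl⟩
  obtain ⟨w, hw, d⟩ := slim_of_four h4 x y z a b c _ _ _ (seg_of_geo ha) (seg_of_geo hb)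
    (seg_of_geo hc) s hs
  exact Metric.mem_thickening_iff.2 ⟨w, hw, d.trans_lt (by
    have : (0 : ℝ) ≤ δ := δ.cast_nonneg
    linarith)⟩

/-- the metric Cayley graph exists, is unique, geodesic, and carries the word metric -/
theorem facts (G : Type) [Group G] (S : Finset G) (hS : Subgroup.closure (S : Set G) = ⊤) :
    (∃ (X : Type) (_ : MetricSpace X) (v : G → X) (e : G × S → unitInterval → X),
      IsCayley S X v e) ∧
    ∀ (X : Type) [MetricSpace X] (v : G → X) (e : G × S → unitInterval → X), IsCayley S X v e →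
      (∀ x y : X, ∃ γ, IsGeodesic γ x y) ∧
      (∀ g h, dist (v g) (v h) = (SimpleGraph.mulCayley (S : Set G)).dist g h) ∧
      ∀ (X' : Type) [MetricSpace X'] (v' : G → X') (e' : G × S → unitInterval → X'),
        IsCayley S X' v' e' → ∃ f : X ≃ᵢ X', (∀ g, f (v g) = v' g) ∧ ∀ i t, f (e i t) = e' i t :=
  ⟨⟨_, _, _, _, model hS⟩, fun _ _ _ _ h =>
    ⟨h.geod hS, h.dist_v hS, fun _ _ _ _ h' => h.unique hS h'⟩⟩

end Vale.Agent.P172M11
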